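import Vale.Agent.P235.H830.QDefs

/-!
# `[UNC]` (helper803): uncrossing of four cuts through different blocks
-/

namespace Vale.Agent.P235.H803

open SimpleGraph Vale.Agent.P235.H134 Vale.Agent.P235.H56 Vale.Agent.P235.H830

variable {V : Type}

/-- the number of outer neighbours not in `b` is submodular -/
theorem submod [Finite V] (G : SimpleGraph V) (b X Y : Set V) :
    (nbr G (X ∩ Y) \ b).ncard + (nbr G (X ∪ Y) \ b).ncard ≤
      (nbr G X \ b).ncard + (nbr G Y \ b).ncard := by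
  classical
  have h1 := Set.ncard_union_add_ncard_inter (nbr G (X ∩ Y) \ b) (nbr G (X ∪ Y) \ b)
  have h2 := Set.ncard_union_add_ncard_inter (nbr G X \ b) (nbr G Y \ b)
  have h3 : (nbr G (X ∩ Y) \ b) ∪ (nbr G (X ∪ Y) \ b) ⊆ (nbr G X \ b) ∪ (nbr G Y \ b) := by
    rintro v (⟨⟨hv, x, hx, hxv⟩, hb⟩ | ⟨⟨hv, x, hx, hxv⟩, hb⟩)
    · by_cases h : v ∈ X
      · exact Or.inr ⟨⟨fun h' => hv ⟨h, h'⟩, x, hx.2, hxv⟩, hb⟩
      · exact Or.inl ⟨⟨h, x, hx.1, hxv⟩, hb⟩
    · rcases hx with hx | hx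
      · exact Or.inl ⟨⟨fun h => hv (Or.inl h), x, hx, hxv⟩, hb⟩
      · exact Or.inr ⟨⟨fun h => hv (Or.inr h), x, hx, hxv⟩, hb⟩
  have h4 : (nbr G (X ∩ Y) \ b) ∩ (nbr G (X ∪ Y) \ b) ⊆ (nbr G X \ b) ∩ (nbr G Y \ b) := by
    rintro v ⟨⟨⟨_, x, hx, hxv⟩, hb⟩, ⟨⟨hv, _⟩, _⟩⟩
    exact ⟨⟨⟨fun h => hv (Or.inl h), x, hx.1, hxv⟩, hb⟩,
      ⟨⟨fun h => hv (Or.inr h), x, hx.2, hxv⟩, hb⟩⟩
  have h5 := Set.ncard_le_ncard h3 (Set.toFinite _)
  have h6 := Set.ncard_le_ncard h4 (Set.toFinite _)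
  omega

/-- a set in a 3-connected graph with three vertices outside of it and of its neighbourhood has
three outer neighbours -/
theorem three_le [Finite V] {G : SimpleGraph V} (hG : Conn3 G) {X B : Set V} (hX : X.Nonempty)
    (hB : 3 ≤ B.ncard) (hXB : Disjoint X B) (hn : Disjoint (nbr G X) B) :
    3 ≤ (nbr G X).ncard := by
  classical
  by_contra hlt
  have hBne : B.Nonempty := by
    rw [Set.nonempty_iff_ne_empty]
    rintro rfl
    simp at hB
  obtain ⟨b, hb⟩ := hBne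
  have key : ∃ s t : V, s ∉ X ∧ t ∉ X ∧ nbr G X ⊆ {s, t} := by
    rcases Nat.lt_or_ge (nbr G X).ncard 1 with h0 | h1
    · have he : nbr G X = ∅ := (Set.ncard_eq_zero (Set.toFinite _)).1 (by omega)
      have hbX : b ∉ X := fun h => (Set.disjoint_left.1 hXB h) hb
      exact ⟨b, b, hbX, hbX, by rw [he]; exact Set.empty_subset _⟩
    · rcases Nat.lt_or_ge (nbr G X).ncard 2 with h1' | h2
      · obtain ⟨s, hs⟩ := Set.ncard_eq_one.1 (by omega : (nbr G X).ncard = 1)
        have hsn : s ∈ nbr G X := by rw [hs]; rfl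
        exact ⟨s, s, hsn.1, hsn.1, by rw [hs]; simp⟩
      · obtain ⟨s, t, _, hst⟩ := Set.ncard_eq_two.1 (by omega : (nbr G X).ncard = 2)
        have hsn : s ∈ nbr G X := by rw [hst]; simp
        have htn : t ∈ nbr G X := by rw [hst]; simp
        exact ⟨s, t, hsn.1, htn.1, by rw [hst]⟩
  obtain ⟨s, t, hs, ht, hst⟩ := key
  have hall := hG s t X hX hs ht (by
    intro u hu v huv
    by_cases hv : v ∈ X
    · exact Or.inl hv
    · rcases hst (⟨hv, u, hu, huv⟩ : v ∈ nbr G X) with h | h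
      · exact Or.inr (Or.inl h)
      · exact Or.inr (Or.inr h))
  have hsub : B ⊆ {s, t} := by
    intro y hy
    rcases hall y with h | h | h
    · exact absurd hy (Set.disjoint_left.1 hXB h)
    · exact Or.inl h
    · exact Or.inr h
  have h1 := Set.ncard_le_ncard hsub (Set.toFinite _)
  have h2 : ({s, t} : Set V).ncard ≤ 2 := by
    have := Set.ncard_insert_le s ({t} : Set V)
    rw [Set.ncard_singleton] at this
    exact this
  omega

/-- **[UNC]** -/
theorem unc : UncStmt := by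
  intro V _ G B S D hG hS hBB hSB hDB hN hDD hB0
  classical
  set b : Set V := ⋃ i, B i with hb
  have memb : ∀ {v : V}, v ∈ b ↔ ∃ i, v ∈ B i := fun {v} => Set.mem_iUnion
  -- outer neighbours of `D i` in a block are in the block `i`
  have hblk : ∀ i k v, v ∈ B k → (∃ x ∈ D i, G.Adj x v) → v ∈ B i := by
    intro i k v hv hx
    have h1 : v ∈ nbr G (D i) := ⟨fun h => Set.disjoint_left.1 (hDB i k) h hv, hx⟩
    rcases hN i h1 with h | h
    · exact absurd hv (Set.disjoint_left.1 (hSB i k) h)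
    · exact h
  -- `F (D i) ≤ 2`
  have hF : ∀ i, (nbr G (D i) \ b).ncard ≤ 2 := by
    intro i
    refine le_trans (Set.ncard_le_ncard ?_ (Set.toFinite _)) (hS i)
    rintro v ⟨hv, hvb⟩
    rcases hN i hv with h | h
    · exact h
    · exact absurd (memb.2 ⟨i, h⟩) hvb
  -- intersections with a set `J` of points in other `D j`
  have hI : ∀ (J : Set V) (i : Fin 4), (∀ x ∈ J, ∃ j, j ≠ i ∧ x ∈ D j) → (J ∩ D i).Nonempty →
      3 ≤ (nbr G (J ∩ D i) \ b).ncard := by
    intro J i hJ hne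
    have hdis : Disjoint (nbr G (J ∩ D i)) b := by
      rw [Set.disjoint_left]
      rintro v ⟨_, x, hx, hxv⟩ hvb
      obtain ⟨k, hk⟩ := memb.1 hvb
      obtain ⟨j, hj, hxj⟩ := hJ x hx.1
      have h1 := hblk i k v hk ⟨x, hx.2, hxv⟩
      have h2 := hblk j k v hk ⟨x, hxj, hxv⟩
      exact Set.disjoint_left.1 (hBB j i hj) h2 h1
    have heq : nbr G (J ∩ D i) \ b = nbr G (J ∩ D i) := hdis.sdiff_eq_left
    rw [heq]
    refine three_le hG hne hB0 ?_ (hdis.mono_right fun v hv => memb.2 ⟨0, hv⟩)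
    exact (hDB i 0).mono_left Set.inter_subset_right
  have a1 := hI (D 0) 1 (fun x hx => ⟨0, by decide, hx⟩) (hDD 0 1)
  have a2 := hI (D 0 ∪ D 1) 2 (fun x hx => by
    rcases hx with hx | hx
    · exact ⟨0, by decide, hx⟩
    · exact ⟨1, by decide, hx⟩) ((hDD 0 2).mono
      (Set.inter_subset_inter_left _ Set.subset_union_left))
  have a3 := hI (D 0 ∪ D 1 ∪ D 2) 3 (fun x hx => by
    rcases hx with (hx | hx) | hx
    · exact ⟨0, by decide, hx⟩
    · exact ⟨1, by decide, hx⟩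
    · exact ⟨2, by decide, hx⟩) ((hDD 0 3).mono
      (Set.inter_subset_inter_left _ (Set.subset_union_left.trans Set.subset_union_left)))
  have s1 := submod G b (D 0) (D 1)
  have s2 := submod G b (D 0 ∪ D 1) (D 2)
  have s3 := submod G b (D 0 ∪ D 1 ∪ D 2) (D 3)
  have f0 := hF 0
  have f1 := hF 1
  have f2 := hF 2
  have f3 := hF 3
  omega

end Vale.Agent.P235.H803
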